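import Vale.Agent.P062.Data.All

/-!
Certificate checks.
-/

namespace Vale.Agent.P062

theorem check0_0 : rangeOk certTable 0 300 = true := by decide +kernel

theorem check0_1 : rangeOk certTable 300 300 = true := by decide +kernel

theorem check0_2 : rangeOk certTable 600 300 = true := by decide +kernel

theorem check0_3 : rangeOk certTable 900 300 = true := by decide +kernel

theorem check0_4 : rangeOk certTable 1200 300 = true := by decide +kernel

theorem check0_5 : rangeOk certTable 1500 300 = true := by decide +kernel

theorem check0_6 : rangeOk certTable 1800 300 = true := by decide +kernel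

theorem check0_7 : rangeOk certTable 2100 300 = true := by decide +kernel

theorem check0_8 : rangeOk certTable 2400 231 = true := by decide +kernel

theorem checked0 {i : ℕ} (h1 : 0 ≤ i) (h2 : i < 2631) : entryOk certTable i = true := by
  rcases Nat.lt_or_ge i 300 with h | h
  · exact entryOk_of_rangeOk check0_0 (by omega) (by omega)
  rcases Nat.lt_or_ge i 600 with h | h
  · exact entryOk_of_rangeOk check0_1 (by omega) (by omega)
  rcases Nat.lt_or_ge i 900 with h | h
  · exact entryOk_of_rangeOk check0_2 (by omega) (by omega)
  rcases Nat.lt_or_ge i 1200 with h | h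
  · exact entryOk_of_rangeOk check0_3 (by omega) (by omega)
  rcases Nat.lt_or_ge i 1500 with h | h
  · exact entryOk_of_rangeOk check0_4 (by omega) (by omega)
  rcases Nat.lt_or_ge i 1800 with h | h
  · exact entryOk_of_rangeOk check0_5 (by omega) (by omega)
  rcases Nat.lt_or_ge i 2100 with h | h
  · exact entryOk_of_rangeOk check0_6 (by omega) (by omega)
  rcases Nat.lt_or_ge i 2400 with h | h
  · exact entryOk_of_rangeOk check0_7 (by omega) (by omega)
  exact entryOk_of_rangeOk check0_8 (by omega) (by omega)

end Vale.Agent.P062
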