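import Vale.Agent.P062.Data.All

/-!
Certificate checks.
-/

namespace Vale.Agent.P062

theorem check1_0 : rangeOk certTable 2631 300 = true := by decide +kernel

theorem check1_1 : rangeOk certTable 2931 300 = true := by decide +kernel

theorem check1_2 : rangeOk certTable 3231 300 = true := by decide +kernel

theorem check1_3 : rangeOk certTable 3531 300 = true := by decide +kernel

theorem check1_4 : rangeOk certTable 3831 300 = true := by decide +kernel

theorem check1_5 : rangeOk certTable 4131 300 = true := by decide +kernel

theorem check1_6 : rangeOk certTable 4431 300 = true := by decide +kernel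

theorem check1_7 : rangeOk certTable 4731 300 = true := by decide +kernel

theorem check1_8 : rangeOk certTable 5031 231 = true := by decide +kernel

theorem checked1 {i : ℕ} (h1 : 2631 ≤ i) (h2 : i < 5262) : entryOk certTable i = true := by
  rcases Nat.lt_or_ge i 2931 with h | h
  · exact entryOk_of_rangeOk check1_0 (by omega) (by omega)
  rcases Nat.lt_or_ge i 3231 with h | h
  · exact entryOk_of_rangeOk check1_1 (by omega) (by omega)
  rcases Nat.lt_or_ge i 3531 with h | h
  · exact entryOk_of_rangeOk check1_2 (by omega) (by omega)
  rcases Nat.lt_or_ge i 3831 with h | h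
  · exact entryOk_of_rangeOk check1_3 (by omega) (by omega)
  rcases Nat.lt_or_ge i 4131 with h | h
  · exact entryOk_of_rangeOk check1_4 (by omega) (by omega)
  rcases Nat.lt_or_ge i 4431 with h | h
  · exact entryOk_of_rangeOk check1_5 (by omega) (by omega)
  rcases Nat.lt_or_ge i 4731 with h | h
  · exact entryOk_of_rangeOk check1_6 (by omega) (by omega)
  rcases Nat.lt_or_ge i 5031 with h | h
  · exact entryOk_of_rangeOk check1_7 (by omega) (by omega)
  exact entryOk_of_rangeOk check1_8 (by omega) (by omega)

end Vale.Agent.P062
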