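import Vale.Agent.P062.Data.All

/-!
Certificate checks.
-/

namespace Vale.Agent.P062

theorem check2_0 : rangeOk certTable 5262 300 = true := by decide +kernel

theorem check2_1 : rangeOk certTable 5562 300 = true := by decide +kernel

theorem check2_2 : rangeOk certTable 5862 300 = true := by decide +kernel

theorem check2_3 : rangeOk certTable 6162 300 = true := by decide +kernel

theorem check2_4 : rangeOk certTable 6462 300 = true := by decide +kernel

theorem check2_5 : rangeOk certTable 6762 300 = true := by decide +kernel

theorem check2_6 : rangeOk certTable 7062 300 = true := by decide +kernel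

theorem check2_7 : rangeOk certTable 7362 300 = true := by decide +kernel

theorem check2_8 : rangeOk certTable 7662 231 = true := by decide +kernel

theorem checked2 {i : ℕ} (h1 : 5262 ≤ i) (h2 : i < 7893) : entryOk certTable i = true := by
  rcases Nat.lt_or_ge i 5562 with h | h
  · exact entryOk_of_rangeOk check2_0 (by omega) (by omega)
  rcases Nat.lt_or_ge i 5862 with h | h
  · exact entryOk_of_rangeOk check2_1 (by omega) (by omega)
  rcases Nat.lt_or_ge i 6162 with h | h
  · exact entryOk_of_rangeOk check2_2 (by omega) (by omega)
  rcases Nat.lt_or_ge i 6462 with h | h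
  · exact entryOk_of_rangeOk check2_3 (by omega) (by omega)
  rcases Nat.lt_or_ge i 6762 with h | h
  · exact entryOk_of_rangeOk check2_4 (by omega) (by omega)
  rcases Nat.lt_or_ge i 7062 with h | h
  · exact entryOk_of_rangeOk check2_5 (by omega) (by omega)
  rcases Nat.lt_or_ge i 7362 with h | h
  · exact entryOk_of_rangeOk check2_6 (by omega) (by omega)
  rcases Nat.lt_or_ge i 7662 with h | h
  · exact entryOk_of_rangeOk check2_7 (by omega) (by omega)
  exact entryOk_of_rangeOk check2_8 (by omega) (by omega)

end Vale.Agent.P062
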