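import Vale.Agent.P062.Data.All
import Vale.Agent.P062.Check.Check2

/-!
Certificate checks.
-/

namespace Vale.Agent.P062

theorem check10_0 : rangeOk certTable 26310 300 = true := by decide +kernel

theorem check10_1 : rangeOk certTable 26610 300 = true := by decide +kernel

theorem check10_2 : rangeOk certTable 26910 300 = true := by decide +kernel

theorem check10_3 : rangeOk certTable 27210 300 = true := by decide +kernel

theorem check10_4 : rangeOk certTable 27510 300 = true := by decide +kernel

theorem check10_5 : rangeOk certTable 27810 300 = true := by decide +kernel

theorem check10_6 : rangeOk certTable 28110 300 = true := by decide +kernel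

theorem check10_7 : rangeOk certTable 28410 300 = true := by decide +kernel

theorem check10_8 : rangeOk certTable 28710 231 = true := by decide +kernel

theorem checked10 {i : ℕ} (h1 : 26310 ≤ i) (h2 : i < 28941) : entryOk certTable i = true := by
  rcases Nat.lt_or_ge i 26610 with h | h
  · exact entryOk_of_rangeOk check10_0 (by omega) (by omega)
  rcases Nat.lt_or_ge i 26910 with h | h
  · exact entryOk_of_rangeOk check10_1 (by omega) (by omega)
  rcases Nat.lt_or_ge i 27210 with h | h
  · exact entryOk_of_rangeOk check10_2 (by omega) (by omega)
  rcases Nat.lt_or_ge i 27510 with h | h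
  · exact entryOk_of_rangeOk check10_3 (by omega) (by omega)
  rcases Nat.lt_or_ge i 27810 with h | h
  · exact entryOk_of_rangeOk check10_4 (by omega) (by omega)
  rcases Nat.lt_or_ge i 28110 with h | h
  · exact entryOk_of_rangeOk check10_5 (by omega) (by omega)
  rcases Nat.lt_or_ge i 28410 with h | h
  · exact entryOk_of_rangeOk check10_6 (by omega) (by omega)
  rcases Nat.lt_or_ge i 28710 with h | h
  · exact entryOk_of_rangeOk check10_7 (by omega) (by omega)
  exact entryOk_of_rangeOk check10_8 (by omega) (by omega)

end Vale.Agent.P062
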