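import Vale.Agent.P062.Data.All

/-!
Certificate checks.
-/

namespace Vale.Agent.P062

theorem check3_0 : rangeOk certTable 7893 300 = true := by decide +kernel

theorem check3_1 : rangeOk certTable 8193 300 = true := by decide +kernel

theorem check3_2 : rangeOk certTable 8493 300 = true := by decide +kernel

theorem check3_3 : rangeOk certTable 8793 300 = true := by decide +kernel

theorem check3_4 : rangeOk certTable 9093 300 = true := by decide +kernel

theorem check3_5 : rangeOk certTable 9393 300 = true := by decide +kernel

theorem check3_6 : rangeOk certTable 9693 300 = true := by decide +kernel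

theorem check3_7 : rangeOk certTable 9993 300 = true := by decide +kernel

theorem check3_8 : rangeOk certTable 10293 231 = true := by decide +kernel

theorem checked3 {i : ℕ} (h1 : 7893 ≤ i) (h2 : i < 10524) : entryOk certTable i = true := by
  rcases Nat.lt_or_ge i 8193 with h | h
  · exact entryOk_of_rangeOk check3_0 (by omega) (by omega)
  rcases Nat.lt_or_ge i 8493 with h | h
  · exact entryOk_of_rangeOk check3_1 (by omega) (by omega)
  rcases Nat.lt_or_ge i 8793 with h | h
  · exact entryOk_of_rangeOk check3_2 (by omega) (by omega)
  rcases Nat.lt_or_ge i 9093 with h | h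
  · exact entryOk_of_rangeOk check3_3 (by omega) (by omega)
  rcases Nat.lt_or_ge i 9393 with h | h
  · exact entryOk_of_rangeOk check3_4 (by omega) (by omega)
  rcases Nat.lt_or_ge i 9693 with h | h
  · exact entryOk_of_rangeOk check3_5 (by omega) (by omega)
  rcases Nat.lt_or_ge i 9993 with h | h
  · exact entryOk_of_rangeOk check3_6 (by omega) (by omega)
  rcases Nat.lt_or_ge i 10293 with h | h
  · exact entryOk_of_rangeOk check3_7 (by omega) (by omega)
  exact entryOk_of_rangeOk check3_8 (by omega) (by omega)

end Vale.Agent.P062
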