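import Vale.Agent.P062.Data.All
import Vale.Agent.P062.Check.Check3

/-!
Certificate checks.
-/

namespace Vale.Agent.P062

theorem check11_0 : rangeOk certTable 28941 300 = true := by decide +kernel

theorem check11_1 : rangeOk certTable 29241 300 = true := by decide +kernel

theorem check11_2 : rangeOk certTable 29541 300 = true := by decide +kernel

theorem check11_3 : rangeOk certTable 29841 300 = true := by decide +kernel

theorem check11_4 : rangeOk certTable 30141 300 = true := by decide +kernel

theorem check11_5 : rangeOk certTable 30441 300 = true := by decide +kernel

theorem check11_6 : rangeOk certTable 30741 300 = true := by decide +kernel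

theorem check11_7 : rangeOk certTable 31041 300 = true := by decide +kernel

theorem check11_8 : rangeOk certTable 31341 231 = true := by decide +kernel

theorem checked11 {i : ℕ} (h1 : 28941 ≤ i) (h2 : i < 31572) : entryOk certTable i = true := by
  rcases Nat.lt_or_ge i 29241 with h | h
  · exact entryOk_of_rangeOk check11_0 (by omega) (by omega)
  rcases Nat.lt_or_ge i 29541 with h | h
  · exact entryOk_of_rangeOk check11_1 (by omega) (by omega)
  rcases Nat.lt_or_ge i 29841 with h | h
  · exact entryOk_of_rangeOk check11_2 (by omega) (by omega)
  rcases Nat.lt_or_ge i 30141 with h | h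
  · exact entryOk_of_rangeOk check11_3 (by omega) (by omega)
  rcases Nat.lt_or_ge i 30441 with h | h
  · exact entryOk_of_rangeOk check11_4 (by omega) (by omega)
  rcases Nat.lt_or_ge i 30741 with h | h
  · exact entryOk_of_rangeOk check11_5 (by omega) (by omega)
  rcases Nat.lt_or_ge i 31041 with h | h
  · exact entryOk_of_rangeOk check11_6 (by omega) (by omega)
  rcases Nat.lt_or_ge i 31341 with h | h
  · exact entryOk_of_rangeOk check11_7 (by omega) (by omega)
  exact entryOk_of_rangeOk check11_8 (by omega) (by omega)

end Vale.Agent.P062
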