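import Vale.Agent.P062.Data.All

/-!
Certificate checks.
-/

namespace Vale.Agent.P062

theorem check4_0 : rangeOk certTable 10524 300 = true := by decide +kernel

theorem check4_1 : rangeOk certTable 10824 300 = true := by decide +kernel

theorem check4_2 : rangeOk certTable 11124 300 = true := by decide +kernel

theorem check4_3 : rangeOk certTable 11424 300 = true := by decide +kernel

theorem check4_4 : rangeOk certTable 11724 300 = true := by decide +kernel

theorem check4_5 : rangeOk certTable 12024 300 = true := by decide +kernel

theorem check4_6 : rangeOk certTable 12324 300 = true := by decide +kernel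

theorem check4_7 : rangeOk certTable 12624 300 = true := by decide +kernel

theorem check4_8 : rangeOk certTable 12924 231 = true := by decide +kernel

theorem checked4 {i : ℕ} (h1 : 10524 ≤ i) (h2 : i < 13155) : entryOk certTable i = true := by
  rcases Nat.lt_or_ge i 10824 with h | h
  · exact entryOk_of_rangeOk check4_0 (by omega) (by omega)
  rcases Nat.lt_or_ge i 11124 with h | h
  · exact entryOk_of_rangeOk check4_1 (by omega) (by omega)
  rcases Nat.lt_or_ge i 11424 with h | h
  · exact entryOk_of_rangeOk check4_2 (by omega) (by omega)
  rcases Nat.lt_or_ge i 11724 with h | h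
  · exact entryOk_of_rangeOk check4_3 (by omega) (by omega)
  rcases Nat.lt_or_ge i 12024 with h | h
  · exact entryOk_of_rangeOk check4_4 (by omega) (by omega)
  rcases Nat.lt_or_ge i 12324 with h | h
  · exact entryOk_of_rangeOk check4_5 (by omega) (by omega)
  rcases Nat.lt_or_ge i 12624 with h | h
  · exact entryOk_of_rangeOk check4_6 (by omega) (by omega)
  rcases Nat.lt_or_ge i 12924 with h | h
  · exact entryOk_of_rangeOk check4_7 (by omega) (by omega)
  exact entryOk_of_rangeOk check4_8 (by omega) (by omega)

end Vale.Agent.P062
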