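import Vale.Agent.P062.Data.All
import Vale.Agent.P062.Check.Check4

/-!
Certificate checks.
-/

namespace Vale.Agent.P062

theorem check12_0 : rangeOk certTable 31572 300 = true := by decide +kernel

theorem check12_1 : rangeOk certTable 31872 300 = true := by decide +kernel

theorem check12_2 : rangeOk certTable 32172 300 = true := by decide +kernel

theorem check12_3 : rangeOk certTable 32472 300 = true := by decide +kernel

theorem check12_4 : rangeOk certTable 32772 300 = true := by decide +kernel

theorem check12_5 : rangeOk certTable 33072 300 = true := by decide +kernel

theorem check12_6 : rangeOk certTable 33372 300 = true := by decide +kernel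

theorem check12_7 : rangeOk certTable 33672 300 = true := by decide +kernel

theorem check12_8 : rangeOk certTable 33972 231 = true := by decide +kernel

theorem checked12 {i : ℕ} (h1 : 31572 ≤ i) (h2 : i < 34203) : entryOk certTable i = true := by
  rcases Nat.lt_or_ge i 31872 with h | h
  · exact entryOk_of_rangeOk check12_0 (by omega) (by omega)
  rcases Nat.lt_or_ge i 32172 with h | h
  · exact entryOk_of_rangeOk check12_1 (by omega) (by omega)
  rcases Nat.lt_or_ge i 32472 with h | h
  · exact entryOk_of_rangeOk check12_2 (by omega) (by omega)
  rcases Nat.lt_or_ge i 32772 with h | h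
  · exact entryOk_of_rangeOk check12_3 (by omega) (by omega)
  rcases Nat.lt_or_ge i 33072 with h | h
  · exact entryOk_of_rangeOk check12_4 (by omega) (by omega)
  rcases Nat.lt_or_ge i 33372 with h | h
  · exact entryOk_of_rangeOk check12_5 (by omega) (by omega)
  rcases Nat.lt_or_ge i 33672 with h | h
  · exact entryOk_of_rangeOk check12_6 (by omega) (by omega)
  rcases Nat.lt_or_ge i 33972 with h | h
  · exact entryOk_of_rangeOk check12_7 (by omega) (by omega)
  exact entryOk_of_rangeOk check12_8 (by omega) (by omega)

end Vale.Agent.P062
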