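import Vale.Agent.P062.Data.All

/-!
Certificate checks.
-/

namespace Vale.Agent.P062

theorem check5_0 : rangeOk certTable 13155 300 = true := by decide +kernel

theorem check5_1 : rangeOk certTable 13455 300 = true := by decide +kernel

theorem check5_2 : rangeOk certTable 13755 300 = true := by decide +kernel

theorem check5_3 : rangeOk certTable 14055 300 = true := by decide +kernel

theorem check5_4 : rangeOk certTable 14355 300 = true := by decide +kernel

theorem check5_5 : rangeOk certTable 14655 300 = true := by decide +kernel

theorem check5_6 : rangeOk certTable 14955 300 = true := by decide +kernel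

theorem check5_7 : rangeOk certTable 15255 300 = true := by decide +kernel

theorem check5_8 : rangeOk certTable 15555 231 = true := by decide +kernel

theorem checked5 {i : ℕ} (h1 : 13155 ≤ i) (h2 : i < 15786) : entryOk certTable i = true := by
  rcases Nat.lt_or_ge i 13455 with h | h
  · exact entryOk_of_rangeOk check5_0 (by omega) (by omega)
  rcases Nat.lt_or_ge i 13755 with h | h
  · exact entryOk_of_rangeOk check5_1 (by omega) (by omega)
  rcases Nat.lt_or_ge i 14055 with h | h
  · exact entryOk_of_rangeOk check5_2 (by omega) (by omega)
  rcases Nat.lt_or_ge i 14355 with h | h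
  · exact entryOk_of_rangeOk check5_3 (by omega) (by omega)
  rcases Nat.lt_or_ge i 14655 with h | h
  · exact entryOk_of_rangeOk check5_4 (by omega) (by omega)
  rcases Nat.lt_or_ge i 14955 with h | h
  · exact entryOk_of_rangeOk check5_5 (by omega) (by omega)
  rcases Nat.lt_or_ge i 15255 with h | h
  · exact entryOk_of_rangeOk check5_6 (by omega) (by omega)
  rcases Nat.lt_or_ge i 15555 with h | h
  · exact entryOk_of_rangeOk check5_7 (by omega) (by omega)
  exact entryOk_of_rangeOk check5_8 (by omega) (by omega)

end Vale.Agent.P062
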