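import Vale.Agent.P062.Data.All
import Vale.Agent.P062.Check.Check5

/-!
Certificate checks.
-/

namespace Vale.Agent.P062

theorem check13_0 : rangeOk certTable 34203 300 = true := by decide +kernel

theorem check13_1 : rangeOk certTable 34503 300 = true := by decide +kernel

theorem check13_2 : rangeOk certTable 34803 300 = true := by decide +kernel

theorem check13_3 : rangeOk certTable 35103 300 = true := by decide +kernel

theorem check13_4 : rangeOk certTable 35403 300 = true := by decide +kernel

theorem check13_5 : rangeOk certTable 35703 300 = true := by decide +kernel

theorem check13_6 : rangeOk certTable 36003 300 = true := by decide +kernel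

theorem check13_7 : rangeOk certTable 36303 300 = true := by decide +kernel

theorem check13_8 : rangeOk certTable 36603 231 = true := by decide +kernel

theorem checked13 {i : ℕ} (h1 : 34203 ≤ i) (h2 : i < 36834) : entryOk certTable i = true := by
  rcases Nat.lt_or_ge i 34503 with h | h
  · exact entryOk_of_rangeOk check13_0 (by omega) (by omega)
  rcases Nat.lt_or_ge i 34803 with h | h
  · exact entryOk_of_rangeOk check13_1 (by omega) (by omega)
  rcases Nat.lt_or_ge i 35103 with h | h
  · exact entryOk_of_rangeOk check13_2 (by omega) (by omega)
  rcases Nat.lt_or_ge i 35403 with h | h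
  · exact entryOk_of_rangeOk check13_3 (by omega) (by omega)
  rcases Nat.lt_or_ge i 35703 with h | h
  · exact entryOk_of_rangeOk check13_4 (by omega) (by omega)
  rcases Nat.lt_or_ge i 36003 with h | h
  · exact entryOk_of_rangeOk check13_5 (by omega) (by omega)
  rcases Nat.lt_or_ge i 36303 with h | h
  · exact entryOk_of_rangeOk check13_6 (by omega) (by omega)
  rcases Nat.lt_or_ge i 36603 with h | h
  · exact entryOk_of_rangeOk check13_7 (by omega) (by omega)
  exact entryOk_of_rangeOk check13_8 (by omega) (by omega)

end Vale.Agent.P062
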