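import Vale.Agent.P062.Data.All

/-!
Certificate checks.
-/

namespace Vale.Agent.P062

theorem check6_0 : rangeOk certTable 15786 300 = true := by decide +kernel

theorem check6_1 : rangeOk certTable 16086 300 = true := by decide +kernel

theorem check6_2 : rangeOk certTable 16386 300 = true := by decide +kernel

theorem check6_3 : rangeOk certTable 16686 300 = true := by decide +kernel

theorem check6_4 : rangeOk certTable 16986 300 = true := by decide +kernel

theorem check6_5 : rangeOk certTable 17286 300 = true := by decide +kernel

theorem check6_6 : rangeOk certTable 17586 300 = true := by decide +kernel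

theorem check6_7 : rangeOk certTable 17886 300 = true := by decide +kernel

theorem check6_8 : rangeOk certTable 18186 231 = true := by decide +kernel

theorem checked6 {i : ℕ} (h1 : 15786 ≤ i) (h2 : i < 18417) : entryOk certTable i = true := by
  rcases Nat.lt_or_ge i 16086 with h | h
  · exact entryOk_of_rangeOk check6_0 (by omega) (by omega)
  rcases Nat.lt_or_ge i 16386 with h | h
  · exact entryOk_of_rangeOk check6_1 (by omega) (by omega)
  rcases Nat.lt_or_ge i 16686 with h | h
  · exact entryOk_of_rangeOk check6_2 (by omega) (by omega)
  rcases Nat.lt_or_ge i 16986 with h | h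
  · exact entryOk_of_rangeOk check6_3 (by omega) (by omega)
  rcases Nat.lt_or_ge i 17286 with h | h
  · exact entryOk_of_rangeOk check6_4 (by omega) (by omega)
  rcases Nat.lt_or_ge i 17586 with h | h
  · exact entryOk_of_rangeOk check6_5 (by omega) (by omega)
  rcases Nat.lt_or_ge i 17886 with h | h
  · exact entryOk_of_rangeOk check6_6 (by omega) (by omega)
  rcases Nat.lt_or_ge i 18186 with h | h
  · exact entryOk_of_rangeOk check6_7 (by omega) (by omega)
  exact entryOk_of_rangeOk check6_8 (by omega) (by omega)

end Vale.Agent.P062
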