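import Vale.Agent.P062.Data.All
import Vale.Agent.P062.Check.Check6

/-!
Certificate checks.
-/

namespace Vale.Agent.P062

theorem check14_0 : rangeOk certTable 36834 300 = true := by decide +kernel

theorem check14_1 : rangeOk certTable 37134 300 = true := by decide +kernel

theorem check14_2 : rangeOk certTable 37434 300 = true := by decide +kernel

theorem check14_3 : rangeOk certTable 37734 300 = true := by decide +kernel

theorem check14_4 : rangeOk certTable 38034 300 = true := by decide +kernel

theorem check14_5 : rangeOk certTable 38334 300 = true := by decide +kernel

theorem check14_6 : rangeOk certTable 38634 300 = true := by decide +kernel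

theorem check14_7 : rangeOk certTable 38934 300 = true := by decide +kernel

theorem check14_8 : rangeOk certTable 39234 231 = true := by decide +kernel

theorem checked14 {i : ℕ} (h1 : 36834 ≤ i) (h2 : i < 39465) : entryOk certTable i = true := by
  rcases Nat.lt_or_ge i 37134 with h | h
  · exact entryOk_of_rangeOk check14_0 (by omega) (by omega)
  rcases Nat.lt_or_ge i 37434 with h | h
  · exact entryOk_of_rangeOk check14_1 (by omega) (by omega)
  rcases Nat.lt_or_ge i 37734 with h | h
  · exact entryOk_of_rangeOk check14_2 (by omega) (by omega)
  rcases Nat.lt_or_ge i 38034 with h | h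
  · exact entryOk_of_rangeOk check14_3 (by omega) (by omega)
  rcases Nat.lt_or_ge i 38334 with h | h
  · exact entryOk_of_rangeOk check14_4 (by omega) (by omega)
  rcases Nat.lt_or_ge i 38634 with h | h
  · exact entryOk_of_rangeOk check14_5 (by omega) (by omega)
  rcases Nat.lt_or_ge i 38934 with h | h
  · exact entryOk_of_rangeOk check14_6 (by omega) (by omega)
  rcases Nat.lt_or_ge i 39234 with h | h
  · exact entryOk_of_rangeOk check14_7 (by omega) (by omega)
  exact entryOk_of_rangeOk check14_8 (by omega) (by omega)

end Vale.Agent.P062
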