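import Vale.Agent.P062.Data.All

/-!
Certificate checks.
-/

namespace Vale.Agent.P062

theorem check7_0 : rangeOk certTable 18417 300 = true := by decide +kernel

theorem check7_1 : rangeOk certTable 18717 300 = true := by decide +kernel

theorem check7_2 : rangeOk certTable 19017 300 = true := by decide +kernel

theorem check7_3 : rangeOk certTable 19317 300 = true := by decide +kernel

theorem check7_4 : rangeOk certTable 19617 300 = true := by decide +kernel

theorem check7_5 : rangeOk certTable 19917 300 = true := by decide +kernel

theorem check7_6 : rangeOk certTable 20217 300 = true := by decide +kernel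

theorem check7_7 : rangeOk certTable 20517 300 = true := by decide +kernel

theorem check7_8 : rangeOk certTable 20817 231 = true := by decide +kernel

theorem checked7 {i : ℕ} (h1 : 18417 ≤ i) (h2 : i < 21048) : entryOk certTable i = true := by
  rcases Nat.lt_or_ge i 18717 with h | h
  · exact entryOk_of_rangeOk check7_0 (by omega) (by omega)
  rcases Nat.lt_or_ge i 19017 with h | h
  · exact entryOk_of_rangeOk check7_1 (by omega) (by omega)
  rcases Nat.lt_or_ge i 19317 with h | h
  · exact entryOk_of_rangeOk check7_2 (by omega) (by omega)
  rcases Nat.lt_or_ge i 19617 with h | h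
  · exact entryOk_of_rangeOk check7_3 (by omega) (by omega)
  rcases Nat.lt_or_ge i 19917 with h | h
  · exact entryOk_of_rangeOk check7_4 (by omega) (by omega)
  rcases Nat.lt_or_ge i 20217 with h | h
  · exact entryOk_of_rangeOk check7_5 (by omega) (by omega)
  rcases Nat.lt_or_ge i 20517 with h | h
  · exact entryOk_of_rangeOk check7_6 (by omega) (by omega)
  rcases Nat.lt_or_ge i 20817 with h | h
  · exact entryOk_of_rangeOk check7_7 (by omega) (by omega)
  exact entryOk_of_rangeOk check7_8 (by omega) (by omega)

end Vale.Agent.P062
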