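import Vale.Agent.P062.Data.All
import Vale.Agent.P062.Check.Check7

/-!
Certificate checks.
-/

namespace Vale.Agent.P062

theorem check15_0 : rangeOk certTable 39465 300 = true := by decide +kernel

theorem check15_1 : rangeOk certTable 39765 300 = true := by decide +kernel

theorem check15_2 : rangeOk certTable 40065 300 = true := by decide +kernel

theorem check15_3 : rangeOk certTable 40365 300 = true := by decide +kernel

theorem check15_4 : rangeOk certTable 40665 300 = true := by decide +kernel

theorem check15_5 : rangeOk certTable 40965 300 = true := by decide +kernel

theorem check15_6 : rangeOk certTable 41265 300 = true := by decide +kernel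

theorem check15_7 : rangeOk certTable 41565 300 = true := by decide +kernel

theorem check15_8 : rangeOk certTable 41865 222 = true := by decide +kernel

theorem checked15 {i : ℕ} (h1 : 39465 ≤ i) (h2 : i < 42087) : entryOk certTable i = true := by
  rcases Nat.lt_or_ge i 39765 with h | h
  · exact entryOk_of_rangeOk check15_0 (by omega) (by omega)
  rcases Nat.lt_or_ge i 40065 with h | h
  · exact entryOk_of_rangeOk check15_1 (by omega) (by omega)
  rcases Nat.lt_or_ge i 40365 with h | h
  · exact entryOk_of_rangeOk check15_2 (by omega) (by omega)
  rcases Nat.lt_or_ge i 40665 with h | h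
  · exact entryOk_of_rangeOk check15_3 (by omega) (by omega)
  rcases Nat.lt_or_ge i 40965 with h | h
  · exact entryOk_of_rangeOk check15_4 (by omega) (by omega)
  rcases Nat.lt_or_ge i 41265 with h | h
  · exact entryOk_of_rangeOk check15_5 (by omega) (by omega)
  rcases Nat.lt_or_ge i 41565 with h | h
  · exact entryOk_of_rangeOk check15_6 (by omega) (by omega)
  rcases Nat.lt_or_ge i 41865 with h | h
  · exact entryOk_of_rangeOk check15_7 (by omega) (by omega)
  exact entryOk_of_rangeOk check15_8 (by omega) (by omega)

end Vale.Agent.P062
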