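import Vale.Agent.P062.Data.All
import Vale.Agent.P062.Check.Check0

/-!
Certificate checks.
-/

namespace Vale.Agent.P062

theorem check8_0 : rangeOk certTable 21048 300 = true := by decide +kernel

theorem check8_1 : rangeOk certTable 21348 300 = true := by decide +kernel

theorem check8_2 : rangeOk certTable 21648 300 = true := by decide +kernel

theorem check8_3 : rangeOk certTable 21948 300 = true := by decide +kernel

theorem check8_4 : rangeOk certTable 22248 300 = true := by decide +kernel

theorem check8_5 : rangeOk certTable 22548 300 = true := by decide +kernel

theorem check8_6 : rangeOk certTable 22848 300 = true := by decide +kernel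

theorem check8_7 : rangeOk certTable 23148 300 = true := by decide +kernel

theorem check8_8 : rangeOk certTable 23448 231 = true := by decide +kernel

theorem checked8 {i : ℕ} (h1 : 21048 ≤ i) (h2 : i < 23679) : entryOk certTable i = true := by
  rcases Nat.lt_or_ge i 21348 with h | h
  · exact entryOk_of_rangeOk check8_0 (by omega) (by omega)
  rcases Nat.lt_or_ge i 21648 with h | h
  · exact entryOk_of_rangeOk check8_1 (by omega) (by omega)
  rcases Nat.lt_or_ge i 21948 with h | h
  · exact entryOk_of_rangeOk check8_2 (by omega) (by omega)
  rcases Nat.lt_or_ge i 22248 with h | h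
  · exact entryOk_of_rangeOk check8_3 (by omega) (by omega)
  rcases Nat.lt_or_ge i 22548 with h | h
  · exact entryOk_of_rangeOk check8_4 (by omega) (by omega)
  rcases Nat.lt_or_ge i 22848 with h | h
  · exact entryOk_of_rangeOk check8_5 (by omega) (by omega)
  rcases Nat.lt_or_ge i 23148 with h | h
  · exact entryOk_of_rangeOk check8_6 (by omega) (by omega)
  rcases Nat.lt_or_ge i 23448 with h | h
  · exact entryOk_of_rangeOk check8_7 (by omega) (by omega)
  exact entryOk_of_rangeOk check8_8 (by omega) (by omega)

end Vale.Agent.P062
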