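import Vale.Agent.P062.Data.All
import Vale.Agent.P062.Check.Check1

/-!
Certificate checks.
-/

namespace Vale.Agent.P062

theorem check9_0 : rangeOk certTable 23679 300 = true := by decide +kernel

theorem check9_1 : rangeOk certTable 23979 300 = true := by decide +kernel

theorem check9_2 : rangeOk certTable 24279 300 = true := by decide +kernel

theorem check9_3 : rangeOk certTable 24579 300 = true := by decide +kernel

theorem check9_4 : rangeOk certTable 24879 300 = true := by decide +kernel

theorem check9_5 : rangeOk certTable 25179 300 = true := by decide +kernel

theorem check9_6 : rangeOk certTable 25479 300 = true := by decide +kernel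

theorem check9_7 : rangeOk certTable 25779 300 = true := by decide +kernel

theorem check9_8 : rangeOk certTable 26079 231 = true := by decide +kernel

theorem checked9 {i : ℕ} (h1 : 23679 ≤ i) (h2 : i < 26310) : entryOk certTable i = true := by
  rcases Nat.lt_or_ge i 23979 with h | h
  · exact entryOk_of_rangeOk check9_0 (by omega) (by omega)
  rcases Nat.lt_or_ge i 24279 with h | h
  · exact entryOk_of_rangeOk check9_1 (by omega) (by omega)
  rcases Nat.lt_or_ge i 24579 with h | h
  · exact entryOk_of_rangeOk check9_2 (by omega) (by omega)
  rcases Nat.lt_or_ge i 24879 with h | h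
  · exact entryOk_of_rangeOk check9_3 (by omega) (by omega)
  rcases Nat.lt_or_ge i 25179 with h | h
  · exact entryOk_of_rangeOk check9_4 (by omega) (by omega)
  rcases Nat.lt_or_ge i 25479 with h | h
  · exact entryOk_of_rangeOk check9_5 (by omega) (by omega)
  rcases Nat.lt_or_ge i 25779 with h | h
  · exact entryOk_of_rangeOk check9_6 (by omega) (by omega)
  rcases Nat.lt_or_ge i 26079 with h | h
  · exact entryOk_of_rangeOk check9_7 (by omega) (by omega)
  exact entryOk_of_rangeOk check9_8 (by omega) (by omega)

end Vale.Agent.P062
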